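import Vale.Agent.P325.H111.Inst

/-!
# The instance made of all copies of a gadget
-/

namespace Vale.Agent.P325.H111

open Finset Vale.Agent.P325.Star Vale.Agent.Lib.PolyTime

/-! ### Tuples -/

/-- All tuples of elements of a list. -/
def tupF {ι : Type} : (k : ℕ) → List ι → List (Fin k → ι)
  | 0, _ => [fun i => i.elim0]
  | k + 1, l => l.flatMap fun e => (tupF k l).map fun t => Fin.cons e t

/-- All tuples of elements of a list, as lists. -/
def tupL {α : Type} : ℕ → List α → List (List α)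
  | 0, _ => [[]]
  | k + 1, l => l.flatMap fun e => (tupL k l).map fun t => e :: t

theorem tupL_map {ι α : Type} (h : ι → α) (k : ℕ) (l : List ι) :
    tupL k (l.map h) = (tupF k l).map fun u => List.ofFn fun i => h (u i) := by
  induction k with
  | zero => simp [tupL, tupF]
  | succ k ih =>
    simp only [tupL, tupF, List.flatMap_map, List.map_flatMap, ih, List.map_map]
    refine List.flatMap_congr fun e _ => ?_
    refine List.map_congr_left fun t _ => ?_
    simp [Function.comp, List.ofFn_succ]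

theorem sum_flatMap {α : Type} (l : List α) (f : α → List ℕ) :
    (l.flatMap f).sum = (l.map fun x => (f x).sum).sum := by
  induction l with
  | nil => rfl
  | cons x l ih => rw [List.flatMap_cons, List.sum_append, List.map_cons, List.sum_cons, ih]

theorem sum_tupF {n : ℕ} (k : ℕ) (h : (Fin k → Fin n) → ℕ) :
    ((tupF k (List.finRange n)).map h).sum = ∑ u : Fin k → Fin n, h u := by
  induction k with
  | zero =>
    simp [tupF]
    congr 1
  | succ k ih =>
    rw [tupF, List.map_flatMap, sum_flatMap]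
    have h1 : ∀ e : Fin n, (List.map h (List.map (fun t => (Fin.cons e t : Fin (k + 1) → Fin n))
        (tupF k (List.finRange n)))).sum = ∑ u : Fin k → Fin n, h (Fin.cons e u) := by
      intro e
      rw [List.map_map, ← ih]
      rfl
    simp only [h1]
    rw [← Fintype.sum_equiv (Fin.consEquiv fun _ : Fin (k + 1) => Fin n)
      (fun p => h (Fin.cons p.1 p.2)) h (fun p => rfl), Fintype.sum_prod_type,
      ← List.ofFn_eq_map, List.sum_ofFn]

theorem countP_eq_sum {α : Type} (l : List α) (p : α → Bool) :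
    l.countP p = (l.map fun x => if p x then 1 else 0).sum := by
  induction l with
  | nil => rfl
  | cons x l ih => rw [List.countP_cons, List.map_cons, List.sum_cons, ih]; ring

/-! ### The constraints -/

variable {n m k : ℕ} (Γ : Gad)

/-- The coefficients of a terminal. -/
def terN (κ : SK m k Γ.s) (l : Fin Γ.s → F) : Fin k → (Fin m → F) × (Fin m → F) :=
  bump κ.1 κ.2.1 (∑ j, l j • κ.2.2 j)

/-- The vertex of the instance for a vertex of the gadget. -/
def vx (q : Fin n → Eqn) (P : Par (Fin n) k m Γ.s) : (Fin Γ.s → F) ⊕ Fin Γ.a → Vx n m k Γ.s Γ.a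
  | .inl l => .inl fun i => symF (q (P.1 i)) (terN Γ P.2 l i)
  | .inr i => .inr (P, i)

/-- The shift of a vertex of the gadget. -/
def shv (q : Fin n → Eqn) (P : Par (Fin n) k m Γ.s) : (Fin Γ.s → F) ⊕ Fin Γ.a → (Fin m → F)
  | .inl l => ∑ i, shF (q (P.1 i)) (terN Γ P.2 l i)
  | .inr _ => 0

/-- Translations of the alphabet. -/
noncomputable def transl (t : Fin m → F) : Equiv.Perm (Fin (2 ^ m)) :=
  (wc m).symm.trans ((Equiv.addRight t).trans (wc m))

/-- The constraint of an edge of a copy of the gadget. -/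
noncomputable def con (q : Fin n → Eqn) (P : Par (Fin n) k m Γ.s)
    (e : ((Fin Γ.s → F) ⊕ Fin Γ.a) × ((Fin Γ.s → F) ⊕ Fin Γ.a) × F) :
    Vx n m k Γ.s Γ.a × Vx n m k Γ.s Γ.a × Equiv.Perm (Fin (2 ^ m)) :=
  (vx Γ q P e.1, vx Γ q P e.2.1, transl (e.2.2 • P.2.2.1 - (shv Γ q P e.1 + shv Γ q P e.2.1)))

/-- All constraints. -/
noncomputable def cons (m k : ℕ) (q : Fin n → Eqn) :
    List (Vx n m k Γ.s Γ.a × Vx n m k Γ.s Γ.a × Equiv.Perm (Fin (2 ^ m))) :=
  (univ : Finset (SK m k Γ.s)).toList.flatMap fun κ =>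
    (tupF k (List.finRange n)).flatMap fun u => Γ.E.map fun e => con Γ q (u, κ) e

theorem sum_cons (q : Fin n → Eqn)
    (h : Vx n m k Γ.s Γ.a × Vx n m k Γ.s Γ.a × Equiv.Perm (Fin (2 ^ m)) → ℕ) :
    ((cons Γ m k q).map h).sum =
      ∑ P : Par (Fin n) k m Γ.s, (Γ.E.map fun e => h (con Γ q P e)).sum := by
  rw [cons, List.map_flatMap, sum_flatMap, Fintype.sum_prod_type_right,
    ← Finset.sum_map_toList]
  congr 1
  refine List.map_congr_left fun κ _ => ?_
  rw [List.map_flatMap, sum_flatMap, ← sum_tupF]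
  congr 1
  refine List.map_congr_left fun u _ => ?_
  rw [List.map_map]
  rfl

theorem length_cons (q : Fin n → Eqn) :
    (cons Γ m k q).length = Fintype.card (Par (Fin n) k m Γ.s) * Γ.E.length := by
  have h1 := sum_cons Γ (m := m) (k := k) q fun _ => 1
  simp only [List.map_const', List.sum_replicate, smul_eq_mul, mul_one, sum_const,
    Finset.card_univ] at h1
  exact h1

theorem transl_apply (t : Fin m → F) (x y : Fin (2 ^ m)) :
    y = transl t x ↔ (wc m).symm y = (wc m).symm x + t := by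
  rw [transl, Equiv.trans_apply, Equiv.trans_apply, Equiv.coe_addRight,
    ← Equiv.symm_apply_eq]

theorem two_torsion (x : Fin m → F) : x + x = 0 := by
  funext i
  exact CharTwo.add_self_eq_zero _

/-- The labels of the vertices of a copy of the gadget. -/
theorem elim_eq (q : Fin n → Eqn) (G : Vx n m k Γ.s Γ.a → Fin (2 ^ m))
    (P : Par (Fin n) k m Γ.s) (v : (Fin Γ.s → F) ⊕ Fin Γ.a) :
    Sum.elim (termL q (fun o => (wc m).symm (G (.inl o))) P)
      (fun i => (wc m).symm (G (.inr (P, i)))) v =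
      (wc m).symm (G (vx Γ q P v)) + shv Γ q P v := by
  rcases v with l | i
  · rfl
  · simp [vx, shv]

theorem countP_cons (q : Fin n → Eqn) (G : Vx n m k Γ.s Γ.a → Fin (2 ^ m)) :
    (cons Γ m k q).countP (fun c => decide (G c.2.1 = c.2.2 (G c.1))) =
      ∑ P : Par (Fin n) k m Γ.s, Γ.num P.2.2.1
        (termL q (fun o => (wc m).symm (G (.inl o))) P)
        (fun i => (wc m).symm (G (.inr (P, i)))) := by
  rw [countP_eq_sum, sum_cons]
  refine Finset.sum_congr rfl fun P _ => ?_
  rw [Gad.num, countP_eq_sum]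
  congr 1
  refine List.map_congr_left fun e _ => ?_
  rw [elim_eq, elim_eq]
  have h1 : (G (con Γ q P e).2.1 = (con Γ q P e).2.2 (G (con Γ q P e).1)) ↔
      ((wc m).symm (G (vx Γ q P e.1)) + shv Γ q P e.1 +
        ((wc m).symm (G (vx Γ q P e.2.1)) + shv Γ q P e.2.1) = e.2.2 • P.2.2.1) := by
    rw [con, transl_apply]
    have h2 := two_torsion ((wc m).symm (G (vx Γ q P e.1)))
    have h3 := two_torsion ((wc m).symm (G (vx Γ q P e.2.1)))
    constructor
    · intro h
      rw [h]
      calc _ = ((wc m).symm (G (vx Γ q P e.1)) + (wc m).symm (G (vx Γ q P e.1))) +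
          e.2.2 • P.2.2.1 := by abel
        _ = _ := by rw [h2, zero_add]
    · intro h
      rw [← h]
      calc _ = (wc m).symm (G (vx Γ q P e.2.1)) + 0 := by rw [add_zero]
        _ = (wc m).symm (G (vx Γ q P e.2.1)) +
          ((wc m).symm (G (vx Γ q P e.1)) + (wc m).symm (G (vx Γ q P e.1))) := by rw [h2]
        _ = _ := by abel
  simp only [h1]

/-! ### Names -/

/-- The constraints with named vertices. -/
noncomputable def nmd (m k : ℕ) (q : Fin n → Eqn) :
    List (List (List ℕ) × List (List ℕ) × Equiv.Perm (Fin (2 ^ m))) :=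
  (cons Γ m k q).map fun c => (vNm c.1, vNm c.2.1, c.2.2)

theorem length_nmd (q : Fin n → Eqn) :
    (nmd Γ m k q).length = Fintype.card (Par (Fin n) k m Γ.s) * Γ.E.length := by
  rw [nmd, List.length_map, length_cons]

theorem countP_nmd (q : Fin n → Eqn) (G : List (List ℕ) → Fin (2 ^ m)) :
    (nmd Γ m k q).countP (fun c => decide (G c.2.1 = c.2.2 (G c.1))) =
      ∑ P : Par (Fin n) k m Γ.s, Γ.num P.2.2.1
        (termL q (fun o => (wc m).symm (G (vNm (.inl o : Vx n m k Γ.s Γ.a)))) P)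
        (fun i => (wc m).symm (G (vNm (.inr (P, i) : Vx n m k Γ.s Γ.a)))) := by
  rw [nmd, List.countP_map, ← countP_cons Γ q fun v => G (vNm v)]
  rfl

/-! ### The list program -/

/-- The list form of `vx`. -/
noncomputable def vxL (κ : SK m k Γ.s) (us : List (Eqn × ℕ)) :
    (Fin Γ.s → F) ⊕ Fin Γ.a → List (List ℕ)
  | .inl l => objL (List.ofFn (terN Γ κ l)) (eqs us)
  | .inr i => prvL (kc m k Γ.s κ) i us

/-- The coefficients of a vertex. -/
def nsL (κ : SK m k Γ.s) : (Fin Γ.s → F) ⊕ Fin Γ.a → List ((Fin m → F) × (Fin m → F))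
  | .inl l => List.ofFn (terN Γ κ l)
  | .inr _ => []

/-- The equations of a vertex. -/
def esL (us : List (Eqn × ℕ)) : (Fin Γ.s → F) ⊕ Fin Γ.a → List Eqn
  | .inl _ => eqs us
  | .inr _ => []

/-- The list form of a constraint. -/
noncomputable def conL (κ : SK m k Γ.s) (us : List (Eqn × ℕ))
    (e : ((Fin Γ.s → F) ⊕ Fin Γ.a) × ((Fin Γ.s → F) ⊕ Fin Γ.a) × F) :
    List (List ℕ) × List (List ℕ) × List ℕ :=
  (vxL Γ κ us e.1, vxL Γ κ us e.2.1,
    shL (fun t => permL (transl t)) (nsL Γ κ e.1 ++ nsL Γ κ e.2.1) (e.2.2 • κ.2.1)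
      (esL Γ us e.1 ++ esL Γ us e.2.1))

/-- The list program for all constraints. -/
noncomputable def tabL (m k : ℕ) (Φ : List Eqn) : List (List (List ℕ) × List (List ℕ) × List ℕ) :=
  (univ : Finset (SK m k Γ.s)).toList.flatMap fun κ =>
    (tupL k (Φ.zip (List.range Φ.length))).flatMap fun us => Γ.E.map fun e => conL Γ κ us e

theorem zip_range (Φ : List Eqn) :
    Φ.zip (List.range Φ.length) = (List.finRange Φ.length).map fun i => (Φ.get i, (i : ℕ)) := by
  apply List.ext_getElem <;> simp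

theorem vxL_eq (Φ : List Eqn) (κ : SK m k Γ.s) (u : Fin k → Fin Φ.length)
    (v : (Fin Γ.s → F) ⊕ Fin Γ.a) :
    vxL Γ κ (List.ofFn fun i => (Φ.get (u i), (u i : ℕ))) v = vNm (vx Γ Φ.get (u, κ) v) := by
  rcases v with l | i
  · simp only [vxL, vx, vNm, Sum.elim_inl, eqs, List.map_ofFn]
    exact objL_ofFn _ _
  · simp only [vxL, vx, vNm, Sum.elim_inr, prvL, prvNm, List.map_ofFn]
    rfl

theorem zip_sum_eq (Φ : List Eqn) (κ : SK m k Γ.s) (u : Fin k → Fin Φ.length)
    (v : (Fin Γ.s → F) ⊕ Fin Γ.a) :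
    (List.zipWith (fun n e => shF e n) (nsL Γ κ v)
      (esL Γ (List.ofFn fun i => (Φ.get (u i), (u i : ℕ))) v)).sum =
      shv Γ Φ.get (u, κ) v := by
  rcases v with l | i
  · have h := shL_ofFn (fun t => t) 0 (terN Γ κ l) (fun i => Φ.get (u i))
    rw [shL, zero_sub, zero_sub, neg_inj] at h
    simp only [nsL, esL, eqs, List.map_ofFn]
    exact h
  · simp [nsL, shv]

theorem length_nsL (κ : SK m k Γ.s) (u : Fin k → Eqn × ℕ) (v : (Fin Γ.s → F) ⊕ Fin Γ.a) :
    (nsL Γ κ v).length = (esL Γ (List.ofFn u) v).length := by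
  rcases v with l | i <;> simp [nsL, esL, eqs]

theorem tabL_eq (Φ : List Eqn) :
    tabL Γ m k Φ = (nmd Γ m k Φ.get).map fun c => (c.1, c.2.1, permL c.2.2) := by
  rw [tabL, nmd, cons, zip_range, tupL_map]
  simp only [List.map_flatMap, List.flatMap_map, List.map_map]
  refine List.flatMap_congr fun κ _ => ?_
  refine List.flatMap_congr fun u _ => ?_
  refine List.map_congr_left fun e _ => ?_
  simp only [Function.comp, conL, con, Prod.mk.injEq]
  refine ⟨vxL_eq Γ Φ κ u e.1, vxL_eq Γ Φ κ u e.2.1, ?_⟩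
  rw [shL, List.zipWith_append (length_nsL Γ κ _ _), List.sum_append, zip_sum_eq, zip_sum_eq]

/-! ### Polynomial time -/

variable {A : Set Word} {α : Type} [Enc α]

theorem PT_tupL {β : Type} [Enc β] (k : ℕ) {l : α → List β} (hl : PT A l) :
    PT A (fun x => tupL k (l x)) := by
  induction k with
  | zero => exact PT.const [[]]
  | succ k ih =>
    refine PT.flatMap (f := fun (x : α) (e : β) => (tupL k (l x)).map fun t => e :: t) hl ?_
    exact PT.map (l := fun p : α × β => tupL k (l p.1)) (f := fun (p : α × β) (t : List β) =>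
      p.2 :: t) (ih.comp PT.fst') (PT.cons PT.fst'.snd PT.snd')

theorem PT_vxL (κ : SK m k Γ.s) (v : (Fin Γ.s → F) ⊕ Fin Γ.a) :
    PT A (fun us : List (Eqn × ℕ) => vxL Γ κ us v) := by
  rcases v with l | i
  · exact PT_objL _ (PT_eqs PT.id)
  · exact PT_prvL _ _ PT.id

theorem PT_esL (v : (Fin Γ.s → F) ⊕ Fin Γ.a) : PT A (fun us : List (Eqn × ℕ) => esL Γ us v) := by
  rcases v with l | i
  · exact PT_eqs PT.id
  · exact PT.const []

theorem PT_conL (κ : SK m k Γ.s) (e : ((Fin Γ.s → F) ⊕ Fin Γ.a) × ((Fin Γ.s → F) ⊕ Fin Γ.a) × F) :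
    PT A (fun us : List (Eqn × ℕ) => conL Γ κ us e) :=
  (PT_vxL Γ κ e.1).pair ((PT_vxL Γ κ e.2.1).pair
    (PT_shL _ _ _ (PT.append (PT_esL Γ e.1) (PT_esL Γ e.2.1))))

theorem PT_tabL {Φ : α → List Eqn} (hΦ : PT A Φ) : PT A (fun x => tabL Γ m k (Φ x)) := by
  refine PT.flatMapConst _ fun κ _ => ?_
  have h1 : PT A (fun x => tupL k ((Φ x).zip (List.range (Φ x).length))) :=
    PT_tupL k (PT.zip hΦ (PT.range hΦ.length (PBd.length hΦ)))
  refine PT.flatMap (f := fun (_ : α) (us : List (Eqn × ℕ)) =>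
    Γ.E.map fun e => conL Γ κ us e) h1 ?_
  exact PT.mapConst _ fun e _ => (PT_conL Γ κ e).comp PT.snd'

end Vale.Agent.P325.H111
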