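import Vale.Agent.P325.Star.Gad

/-!
# Completeness of gadgets
-/

namespace Vale.Agent.P325.H111

open Finset Vale.Agent.P325.Star

section Alg

variable {W : Type} [AddCommGroup W] [Module F W]

theorem add_self_W (w : W) : w + w = 0 := by
  have h : (2 : F) • w = 0 := by
    rw [show (2 : F) = 0 from rfl, zero_smul]
  rwa [two_smul] at h

theorem bump_bump {k : ℕ} (n : Fin k → W × W) (c : W) (l l' : Fin k → F × F) :
    bump (bump n c l) c l' = bump n c (l + l') := by
  funext i
  simp [bump, add_smul, add_assoc]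

theorem bump_zero {k : ℕ} (n : Fin k → W × W) (c : W) : bump n c 0 = n := by
  funext i
  simp [bump]

/-- The value of a variable. -/
def av (x : ℕ → Bool) (y : ℕ) : F := if x y then 1 else 0

/-- The value of a symbol. -/
def symVal (x : ℕ → Bool) : Sym W → W
  | .zero => 0
  | .single y c => av x y • c
  | .full e n₁ n₂ => av x e.1.1 • n₁ + av x e.1.2.1 • n₂

theorem bool_rel : ∀ a b c : Bool, (if c then (1 : F) else 0) +
    (if xor (xor a b) c then 1 else 0) = (if a then 1 else 0) + (if b then 1 else 0) := by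
  decide

theorem av_rel (x : ℕ → Bool) (e : Eqn) (he : ¬ e.Viol x) :
    av x e.1.2.2 + e.rhs = av x e.1.1 + av x e.1.2.1 := by
  obtain ⟨⟨a, b, c⟩, d⟩ := e
  have h1 : xor (xor (x a) (x b)) (x c) = d := by
    by_contra h
    exact he h
  subst h1
  exact bool_rel _ _ _

theorem symVal_symF [DecidableEq W] (x : ℕ → Bool) (e : Eqn) (he : ¬ e.Viol x) (n : W × W) :
    symVal x (symF e n) + shF e n = av x e.1.1 • n.1 + av x e.1.2.1 • n.2 := by
  obtain ⟨n₁, n₂⟩ := n
  by_cases h2 : n₂ = 0
  · by_cases h1 : n₁ = 0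
    · simp [symF, shF, h1, h2, symVal]
    · simp [symF, shF, h1, h2, symVal]
  · by_cases h1 : n₁ = 0
    · have h3 : ¬ (0 : W) = n₂ := fun h => h2 h.symm
      simp [symF, shF, h1, h2, h3, symVal]
    · by_cases h3 : n₁ = n₂
      · subst h3
        simp only [symF, shF, h1, if_false, if_true, symVal]
        rw [← add_smul, ← add_smul, av_rel x e he]
      · simp [symF, shF, h1, h2, h3, symVal]

/-- The honest table. -/
def hf {k m : ℕ} (x : ℕ → Bool) (s : Fin k → Sym (Fin m → F)) : Fin m → F :=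
  ∑ i, symVal x (s i)

/-- The honest value. -/
def lin {k : ℕ} (x : ℕ → Bool) (e : Fin k → Eqn) (n : Fin k → W × W) : W :=
  ∑ i, (av x (e i).1.1 • (n i).1 + av x (e i).1.2.1 • (n i).2)

/-- The value of a functional. -/
def dv {k : ℕ} (x : ℕ → Bool) (e : Fin k → Eqn) (l : Fin k → F × F) : F :=
  ∑ i, (av x (e i).1.1 * (l i).1 + av x (e i).1.2.1 * (l i).2)

theorem tabU_hf {k m : ℕ} (x : ℕ → Bool) (e : Fin k → Eqn) (he : ∀ i, ¬ (e i).Viol x)
    (n : Fin k → (Fin m → F) × (Fin m → F)) : tabU (hf x) e n = lin x e n := by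
  unfold tabU hf lin
  rw [← sum_add_distrib]
  exact sum_congr rfl fun i _ => symVal_symF x (e i) (he i) (n i)

theorem lin_bump {k : ℕ} (x : ℕ → Bool) (e : Fin k → Eqn) (n : Fin k → W × W) (c : W)
    (l : Fin k → F × F) : lin x e (bump n c l) = lin x e n + dv x e l • c := by
  unfold lin dv bump
  rw [sum_smul, ← sum_add_distrib]
  refine sum_congr rfl fun i _ => ?_
  simp only [smul_add, add_smul, smul_smul]
  abel

theorem dv_sum {k s : ℕ} (x : ℕ → Bool) (e : Fin k → Eqn) (l : Fin s → F)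
    (y : Fin s → Fin k → F × F) :
    dv x e (∑ j, l j • y j) = l ⬝ᵥ fun j => dv x e (y j) := by
  unfold dv dotProduct
  simp only [Finset.sum_apply, Pi.smul_apply, Prod.fst_sum, Prod.snd_sum, Prod.smul_fst,
    Prod.smul_snd, smul_eq_mul, mul_sum]
  rw [sum_comm]
  simp only [← sum_add_distrib]
  refine sum_congr rfl fun i _ => ?_
  exact sum_congr rfl fun j _ => by ring

end Alg

/-- Most tuples of equations are satisfied. -/
theorem card_good (k : ℕ) (ι : Type) [Fintype ι] [Nonempty ι] (q : ι → Eqn) (x : ℕ → Bool)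
    (ε : ℝ) (h : (#{i | (q i).Viol x} : ℝ) ≤ ε * Fintype.card ι) :
    (1 - k * ε) * Fintype.card (Fin k → ι) ≤
      (#{u : Fin k → ι | ∀ i, ¬ (q (u i)).Viol x} : ℝ) := by
  classical
  have h1 : ∀ i : Fin k, (#{u : Fin k → ι | (q (u i)).Viol x} : ℝ) ≤
      ε * Fintype.card (Fin k → ι) := by
    intro i
    have h2 : #{u : Fin k → ι | (q (u i)).Viol x} * Fintype.card ι =
        #{j | (q j).Viol x} * Fintype.card (Fin k → ι) := by
      rcases k with _ | k
      · exact i.elim0
      have e1 : #{u : Fin (k + 1) → ι | (q (u i)).Viol x} =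
          #{p : ι × (Fin k → ι) | (q p.1).Viol x} := by
        apply card_equiv (Fin.insertNthEquiv (fun _ => ι) i).symm
        intro u
        simp [Fin.insertNthEquiv]
      have e2 : #{p : ι × (Fin k → ι) | (q p.1).Viol x} =
          #{j | (q j).Viol x} * Fintype.card (Fin k → ι) := by
        rw [show ({p : ι × (Fin k → ι) | (q p.1).Viol x} : Finset (ι × (Fin k → ι))) =
          ({j | (q j).Viol x} : Finset ι) ×ˢ (univ : Finset (Fin k → ι)) by ext p; simp]
        rw [card_product, card_univ]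
      rw [e1, e2]
      simp only [Fintype.card_pi, prod_const, card_univ, Fintype.card_fin, pow_succ]
      ring
    have h3 : (0 : ℝ) < Fintype.card ι := by exact_mod_cast Fintype.card_pos
    have h4 : (#{u : Fin k → ι | (q (u i)).Viol x} : ℝ) * Fintype.card ι =
        #{j | (q j).Viol x} * Fintype.card (Fin k → ι) := by exact_mod_cast h2
    have h5 : (#{u : Fin k → ι | (q (u i)).Viol x} : ℝ) * Fintype.card ι ≤
        (ε * Fintype.card (Fin k → ι)) * Fintype.card ι := by
      rw [h4]
      calc (#{j | (q j).Viol x} : ℝ) * Fintype.card (Fin k → ι)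
          ≤ (ε * Fintype.card ι) * Fintype.card (Fin k → ι) := by gcongr
        _ = _ := by ring
    exact le_of_mul_le_mul_right h5 h3
  have h6 : (Fintype.card (Fin k → ι) : ℝ) ≤ #{u : Fin k → ι | ∀ i, ¬ (q (u i)).Viol x} +
      ∑ i : Fin k, (#{u : Fin k → ι | (q (u i)).Viol x} : ℝ) := by
    have h7 : (univ : Finset (Fin k → ι)) ⊆ ({u : Fin k → ι | ∀ i, ¬ (q (u i)).Viol x} :
        Finset (Fin k → ι)) ∪ (univ : Finset (Fin k)).biUnion fun i =>
          ({u : Fin k → ι | (q (u i)).Viol x} : Finset (Fin k → ι)) := by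
      intro u _
      simp only [mem_union, mem_filter, mem_univ, true_and, mem_biUnion]
      by_cases hu : ∀ i, ¬ (q (u i)).Viol x
      · exact Or.inl hu
      · push Not at hu
        exact Or.inr hu
    have h8 := (card_le_card h7).trans (card_union_le _ _)
    have h9 := h8.trans (Nat.add_le_add_left card_biUnion_le _)
    rw [card_univ] at h9
    exact_mod_cast h9
  have h10 : ∑ i : Fin k, (#{u : Fin k → ι | (q (u i)).Viol x} : ℝ) ≤
      k * (ε * Fintype.card (Fin k → ι)) := by
    calc ∑ i : Fin k, (#{u : Fin k → ι | (q (u i)).Viol x} : ℝ)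
        ≤ ∑ i : Fin k, ε * Fintype.card (Fin k → ι) := sum_le_sum fun i _ => h1 i
      _ = _ := by simp
  linarith

theorem gadComplete : GadComplete := by
  intro Γ p hp hY k m ε ι _ _ q x hε
  classical
  choose g0 hg0 using hY
  let tt : Par ι k m Γ.s → Fin Γ.s → F := fun P j => dv x (fun i => q (P.1 i)) (P.2.2.2 j)
  refine ⟨hf x, fun P a => lin x (fun i => q (P.1 i)) P.2.1 + g0 (tt P) a • P.2.2.1, ?_⟩
  set good : Finset (Fin k → ι) := {u : Fin k → ι | ∀ i, ¬ (q (u i)).Viol x} with hgood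
  have h1 := card_good k ι q x ε hε
  rw [← hgood] at h1
  have h2 : ∀ P : Par ι k m Γ.s, (if P.1 ∈ good then p * Γ.E.length else 0) ≤
      (Γ.num P.2.2.1 (termL q (hf x) P) (fun a => lin x (fun i => q (P.1 i)) P.2.1 +
        g0 (tt P) a • P.2.2.1) : ℝ) := by
    intro P
    split_ifs with hP
    · refine (hg0 (tt P)).trans ?_
      have hP' : ∀ i, ¬ (q (P.1 i)).Viol x := by simpa [hgood] using hP
      norm_cast
      unfold Gad.num
      apply List.countP_mono_left
      intro e _ he
      simp only [decide_eq_true_eq, smul_eq_mul, mul_one] at he ⊢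
      have h3 : ∀ y : (Fin Γ.s → F) ⊕ Fin Γ.a,
          Sum.elim (termL q (hf x) P) (fun a => lin x (fun i => q (P.1 i)) P.2.1 +
            g0 (tt P) a • P.2.2.1) y = lin x (fun i => q (P.1 i)) P.2.1 +
            Sum.elim (fun l => l ⬝ᵥ tt P) (g0 (tt P)) y • P.2.2.1 := by
        rintro (l | a)
        · simp only [Sum.elim_inl, termL]
          rw [tabU_hf x _ hP', lin_bump, dv_sum]
        · simp only [Sum.elim_inr]
      rw [h3, h3, ← he, add_smul]
      have h4 := add_self_W (lin x (fun i => q (P.1 i)) P.2.1)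
      generalize lin x (fun i => q (P.1 i)) P.2.1 = A at h4 ⊢
      calc _ = (A + A) + (Sum.elim (fun l => l ⬝ᵥ tt P) (g0 (tt P)) e.1 • P.2.2.1 +
            Sum.elim (fun l => l ⬝ᵥ tt P) (g0 (tt P)) e.2.1 • P.2.2.1) := by abel
        _ = _ := by rw [h4, zero_add]
    · exact Nat.cast_nonneg _
  refine le_trans ?_ (sum_le_sum fun P _ => h2 P)
  rw [← sum_filter, sum_const, nsmul_eq_mul]
  have h5 : #{P : Par ι k m Γ.s | P.1 ∈ good} = good.card *
      Fintype.card ((Fin k → (Fin m → F) × (Fin m → F)) × (Fin m → F) ×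
        (Fin Γ.s → Fin k → F × F)) := by
    rw [show ({P : Par ι k m Γ.s | P.1 ∈ good} : Finset (Par ι k m Γ.s)) = good ×ˢ univ by
      ext P; simp]
    rw [card_product, card_univ]
  rw [h5]
  have h6 : Fintype.card (Par ι k m Γ.s) = Fintype.card (Fin k → ι) *
      Fintype.card ((Fin k → (Fin m → F) × (Fin m → F)) × (Fin m → F) ×
        (Fin Γ.s → Fin k → F × F)) := Fintype.card_prod _ _
  rw [h6]
  have hB : (0 : ℝ) ≤ (Fintype.card ((Fin k → (Fin m → F) × (Fin m → F)) × (Fin m → F) ×
        (Fin Γ.s → Fin k → F × F)) : ℝ) := Nat.cast_nonneg _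
  push_cast
  generalize (Fintype.card ((Fin k → (Fin m → F) × (Fin m → F)) × (Fin m → F) ×
        (Fin Γ.s → Fin k → F × F)) : ℝ) = B at hB ⊢
  calc (1 - ↑k * ε) * p * (↑(Fintype.card (Fin k → ι)) * B * ↑Γ.E.length)
      = ((1 - ↑k * ε) * ↑(Fintype.card (Fin k → ι))) * (B * (p * Γ.E.length)) := by ring
    _ ≤ good.card * (B * (p * Γ.E.length)) := by gcongr
    _ = (good.card : ℝ) * B * (p * ↑Γ.E.length) := by ring

end Vale.Agent.P325.H111
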