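import Vale.Agent.P325.H111.GadC

/-!
# Soundness of gadgets
-/

namespace Vale.Agent.P325.H111

open Finset Vale.Agent.P325.Star

/-- A nonzero linear combination of the coordinates has equal fibres. -/
theorem comb_fiber {s : ℕ} {L : Type} [AddCommGroup L] [Module F L] [Fintype L] [DecidableEq L]
    (d : Fin s → F) (hd : d ≠ 0) (S : Finset L) :
    #{y : Fin s → L | ∑ j, d j • y j ∈ S} * Fintype.card L = #S * Fintype.card (Fin s → L) := by
  classical
  obtain ⟨j0, hj0⟩ := Function.ne_iff.1 hd
  have hj1 : d j0 = 1 := by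
    have : ∀ a : F, a ≠ 0 → a = 1 := by decide
    exact this _ hj0
  -- the involutive shear
  let φ : (Fin s → L) → (Fin s → L) := fun y => Function.update y j0 (∑ j, d j • y j)
  have hsum : ∀ y : Fin s → L, ∑ j, d j • y j = y j0 + ∑ j ∈ univ.erase j0, d j • y j := by
    intro y
    rw [← Finset.add_sum_erase _ _ (mem_univ j0), hj1, one_smul]
  have hφ0 : ∀ y, φ y j0 = ∑ j, d j • y j := fun y => by simp [φ]
  have hφ : Function.Involutive φ := by
    intro y
    funext j
    by_cases hj : j = j0
    · subst hj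
      rw [hφ0, hsum, hφ0, hsum]
      have h1 : ∑ i ∈ univ.erase j, d i • φ y i = ∑ i ∈ univ.erase j, d i • y i := by
        refine sum_congr rfl fun i hi => ?_
        have : i ≠ j := ne_of_mem_erase hi
        simp [φ, this]
      rw [h1, add_assoc, add_self_W, add_zero]
    · simp [φ, hj]
  have e1 : #{y : Fin s → L | ∑ j, d j • y j ∈ S} = #{y : Fin s → L | y j0 ∈ S} := by
    apply card_equiv hφ.toPerm
    intro y
    simp only [mem_filter, mem_univ, true_and, Function.Involutive.coe_toPerm, hφ0]
  rw [e1]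
  rcases s with _ | s
  · exact j0.elim0
  have e2 : #{y : Fin (s + 1) → L | y j0 ∈ S} = #{p : L × (Fin s → L) | p.1 ∈ S} := by
    apply card_equiv (Fin.insertNthEquiv (fun _ => L) j0).symm
    intro u
    simp [Fin.insertNthEquiv]
  rw [e2, show ({p : L × (Fin s → L) | p.1 ∈ S} : Finset (L × (Fin s → L))) =
    S ×ˢ (univ : Finset (Fin s → L)) by ext p; simp]
  rw [card_product, card_univ]
  simp only [Fintype.card_pi, prod_const, card_univ, Fintype.card_fin, pow_succ]
  ring

theorem num_le_length (Γ : Gad) {W : Type} [AddCommGroup W] [Module F W] [DecidableEq W] (c : W)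
    (τ : (Fin Γ.s → F) → W) (g : Fin Γ.a → W) : Γ.num c τ g ≤ Γ.E.length :=
  List.countP_le_length

theorem no_nonneg (Γ : Gad) (p : ℝ) (h : Γ.No p) : 0 ≤ p * Γ.E.length := by
  have h1 := h ((Fin Γ.s → F) × F) (0, 1) (fun l => (l, 0)) (fun _ => 0) (by simp) (by
    intro l l' hl
    refine ⟨fun h => hl (Prod.mk.inj h).1.symm, fun h => hl ?_⟩
    have := (congrArg Prod.fst h).symm
    simpa using this)
  exact (Nat.cast_nonneg _).trans h1

theorem gadSound : GadSound := by
  intro Γ p hs hN k m δ ι _ _ q f hδ g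
  classical
  set AG : Finset ((Fin k → ι) × (Fin k → (Fin m → F) × (Fin m → F)) × (Fin m → F) ×
      (Fin k → F × F)) := {P | tabU f (fun i => q (P.1 i)) (bump P.2.1 P.2.2.1 P.2.2.2) =
          tabU f (fun i => q (P.1 i)) P.2.1 ∨
        tabU f (fun i => q (P.1 i)) (bump P.2.1 P.2.2.1 P.2.2.2) =
          tabU f (fun i => q (P.1 i)) P.2.1 + P.2.2.1} with hAG
  have hδ' : (#AG : ℝ) ≤ δ * Fintype.card
        ((Fin k → ι) × (Fin k → (Fin m → F) × (Fin m → F)) × (Fin m → F) × (Fin k → F × F)) := by
    convert hδ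
  have hcard : (0 : ℝ) < Fintype.card
      ((Fin k → ι) × (Fin k → (Fin m → F) × (Fin m → F)) × (Fin m → F) × (Fin k → F × F)) := by
    exact_mod_cast Fintype.card_pos
  have hδ0 : 0 ≤ δ := by
    have h1 : 0 ≤ δ * Fintype.card
        ((Fin k → ι) × (Fin k → (Fin m → F) × (Fin m → F)) × (Fin m → F) × (Fin k → F × F)) :=
      (Nat.cast_nonneg _).trans hδ'
    exact nonneg_of_mul_nonneg_left h1 hcard
  -- the bad copies
  let Bad : (Fin Γ.s → F) → (Fin Γ.s → F) → Finset (Par ι k m Γ.s) := fun l l' =>
    {P | termL q f P l' = termL q f P l ∨ termL q f P l' = termL q f P l + P.2.2.1}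
  have hBad : ∀ l l', l ≠ l' → (#(Bad l l') : ℝ) ≤ δ * Fintype.card (Par ι k m Γ.s) := by
    intro l l' hl
    have hd : l' + l ≠ 0 := by
      intro h
      apply hl
      have h2 := congrArg (· + l) h
      simp only [add_assoc, add_self_W, add_zero, zero_add] at h2
      exact h2.symm
    -- the fibres over `u, n, c, y`
    have key : #(Bad l l') * Fintype.card (Fin k → F × F) =
        #AG * Fintype.card (Fin Γ.s → Fin k → F × F) := by
      -- shear
      have e1 : #(Bad l l') = #{P : Par ι k m Γ.s |
          (P.1, P.2.1, P.2.2.1, ∑ j, (l' + l) j • P.2.2.2 j) ∈ AG} := by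
        let ψ : Par ι k m Γ.s → Par ι k m Γ.s := fun P =>
          (P.1, bump P.2.1 P.2.2.1 (∑ j, l j • P.2.2.2 j), P.2.2.1, P.2.2.2)
        have hψ : Function.Involutive ψ := by
          rintro ⟨u, n, c, y⟩
          simp only [ψ, bump_bump, add_self_W, bump_zero]
        apply card_equiv hψ.toPerm
        rintro ⟨u, n, c, y⟩
        have hm : ((u, n, c, y) : Par ι k m Γ.s) ∈ Bad l l' ↔
            (termL q f (u, n, c, y) l' = termL q f (u, n, c, y) l ∨
              termL q f (u, n, c, y) l' = termL q f (u, n, c, y) l + c) := by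
          simp only [Bad, mem_filter, mem_univ, true_and]
        rw [hm]
        simp only [mem_filter, mem_univ, true_and, Function.Involutive.coe_toPerm, ψ, hAG,
          termL, bump_bump]
        have h3 : ∑ j, l j • y j + ∑ j, (l' + l) j • y j = ∑ j, l' j • y j := by
          rw [← sum_add_distrib]
          refine sum_congr rfl fun j _ => ?_
          rw [← add_smul]
          congr 1
          simp only [Pi.add_apply]
          rw [add_comm (l' j), ← add_assoc]
          have : l j + l j = 0 := add_self_W (l j)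
          rw [this, zero_add]
        rw [h3]
      rw [e1]
      -- sum over `u, n, c`
      have e2 : ∀ z : (Fin k → ι) × (Fin k → (Fin m → F) × (Fin m → F)) × (Fin m → F),
          #{y : Fin Γ.s → Fin k → F × F | (z.1, z.2.1, z.2.2, ∑ j, (l' + l) j • y j) ∈ AG} *
            Fintype.card (Fin k → F × F) =
          #{x : Fin k → F × F | (z.1, z.2.1, z.2.2, x) ∈ AG} *
            Fintype.card (Fin Γ.s → Fin k → F × F) := by
        intro z
        have := comb_fiber (l' + l) hd ({x : Fin k → F × F | (z.1, z.2.1, z.2.2, x) ∈ AG} :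
          Finset (Fin k → F × F))
        simpa only [mem_filter, mem_univ, true_and] using this
      have e3 : #{P : Par ι k m Γ.s | (P.1, P.2.1, P.2.2.1, ∑ j, (l' + l) j • P.2.2.2 j) ∈ AG} =
          ∑ z : (Fin k → ι) × (Fin k → (Fin m → F) × (Fin m → F)) × (Fin m → F),
            #{y : Fin Γ.s → Fin k → F × F | (z.1, z.2.1, z.2.2, ∑ j, (l' + l) j • y j) ∈ AG} := by
        simp only [card_filter]
        rw [Fintype.sum_prod_type, Fintype.sum_prod_type]
        refine sum_congr rfl fun u _ => ?_
        rw [Fintype.sum_prod_type, Fintype.sum_prod_type]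
        refine sum_congr rfl fun n _ => ?_
        rw [Fintype.sum_prod_type]
      have e4 : #AG = ∑ z : (Fin k → ι) × (Fin k → (Fin m → F) × (Fin m → F)) × (Fin m → F),
            #{x : Fin k → F × F | (z.1, z.2.1, z.2.2, x) ∈ AG} := by
        rw [show #AG = #{P : (Fin k → ι) × (Fin k → (Fin m → F) × (Fin m → F)) × (Fin m → F) ×
          (Fin k → F × F) | P ∈ AG} by simp]
        simp only [card_filter]
        rw [Fintype.sum_prod_type, Fintype.sum_prod_type]
        refine sum_congr rfl fun u _ => ?_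
        rw [Fintype.sum_prod_type, Fintype.sum_prod_type]
        refine sum_congr rfl fun n _ => ?_
        rw [Fintype.sum_prod_type]
      rw [e3, e4, sum_mul, sum_mul]
      exact sum_congr rfl fun z _ => e2 z
    have h5 : (#(Bad l l') : ℝ) * Fintype.card (Fin k → F × F) =
        #AG * Fintype.card (Fin Γ.s → Fin k → F × F) := by exact_mod_cast key
    have h6 : (0 : ℝ) < Fintype.card (Fin k → F × F) := by exact_mod_cast Fintype.card_pos
    refine le_of_mul_le_mul_right ?_ h6
    rw [h5]
    calc (#AG : ℝ) * Fintype.card (Fin Γ.s → Fin k → F × F)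
        ≤ (δ * Fintype.card ((Fin k → ι) × (Fin k → (Fin m → F) × (Fin m → F)) × (Fin m → F) ×
          (Fin k → F × F))) * Fintype.card (Fin Γ.s → Fin k → F × F) := by gcongr
      _ = _ := by
        simp only [Par, Fintype.card_prod]
        push_cast
        ring
  -- all the bad copies together
  set BB : Finset (Par ι k m Γ.s) := univ.filter fun P => ∃ l l', l ≠ l' ∧ P ∈ Bad l l' with hBB
  have hBBc : (#BB : ℝ) ≤ 4 ^ Γ.s * δ * Fintype.card (Par ι k m Γ.s) := by
    have h1 : BB ⊆ (univ.filter fun z : (Fin Γ.s → F) × (Fin Γ.s → F) => z.1 ≠ z.2).biUnion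
        fun z => Bad z.1 z.2 := by
      intro P hP
      obtain ⟨l, l', hl, hP⟩ := (mem_filter.1 hP).2
      exact mem_biUnion.2 ⟨(l, l'), by simpa using hl, hP⟩
    have h2 : (#BB : ℝ) ≤ ∑ z ∈ univ.filter (fun z : (Fin Γ.s → F) × (Fin Γ.s → F) => z.1 ≠ z.2),
        (#(Bad z.1 z.2) : ℝ) := by
      exact_mod_cast (card_le_card h1).trans card_biUnion_le
    refine h2.trans ?_
    calc ∑ z ∈ univ.filter (fun z : (Fin Γ.s → F) × (Fin Γ.s → F) => z.1 ≠ z.2),
        (#(Bad z.1 z.2) : ℝ)
        ≤ ∑ z ∈ univ.filter (fun z : (Fin Γ.s → F) × (Fin Γ.s → F) => z.1 ≠ z.2),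
          δ * Fintype.card (Par ι k m Γ.s) :=
          sum_le_sum fun z hz => hBad _ _ (by simpa using hz)
      _ ≤ ∑ z : (Fin Γ.s → F) × (Fin Γ.s → F), δ * Fintype.card (Par ι k m Γ.s) := by
          apply sum_le_sum_of_subset_of_nonneg (filter_subset _ _)
          intro i _ _
          positivity
      _ = _ := by
          have h3 : (Fintype.card ((Fin Γ.s → F) × (Fin Γ.s → F)) : ℝ) = 4 ^ Γ.s := by
            simp only [Fintype.card_prod, Fintype.card_pi, prod_const, ZMod.card, card_univ,
              Fintype.card_fin]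
            push_cast
            rw [← mul_pow]
            norm_num
          rw [sum_const, card_univ, nsmul_eq_mul, h3]
          ring
  have h7 : ∀ P : Par ι k m Γ.s, (Γ.num P.2.2.1 (termL q f P) (g P) : ℝ) ≤
      p * Γ.E.length + if P ∈ BB then (Γ.E.length : ℝ) else 0 := by
    intro P
    split_ifs with hP
    · have := num_le_length Γ P.2.2.1 (termL q f P) (g P)
      have h8 : (Γ.num P.2.2.1 (termL q f P) (g P) : ℝ) ≤ Γ.E.length := by exact_mod_cast this
      linarith [no_nonneg Γ p hN]
    · rw [add_zero]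
      refine hN (Fin m → F) P.2.2.1 (termL q f P) (g P) ?_ fun l l' hl => ?_
      · intro h0
        have h1 : (0 : Fin Γ.s → F) ≠ Pi.single ⟨0, hs⟩ 1 := by
          intro h
          have := congrFun h ⟨0, hs⟩
          simp at this
        refine hP (mem_filter.2 ⟨mem_univ _, 0, Pi.single ⟨0, hs⟩ 1, h1, ?_⟩)
        simp only [Bad, mem_filter, mem_univ, true_and]
        left
        have h2 : ∀ x, bump P.2.1 P.2.2.1 x = P.2.1 := by
          intro x
          rw [h0]
          funext i
          simp [bump]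
        simp only [termL, h2]
      have h9 : P ∉ Bad l l' := fun h => hP (mem_filter.2 ⟨mem_univ _, l, l', hl, h⟩)
      simp only [Bad, mem_filter, mem_univ, true_and, not_or] at h9
      exact h9
  refine (sum_le_sum fun P _ => h7 P).trans ?_
  rw [sum_add_distrib, ← sum_filter, sum_const, sum_const, card_univ, nsmul_eq_mul, nsmul_eq_mul]
  have h10 : (univ.filter fun P : Par ι k m Γ.s => P ∈ BB) = BB := by ext; simp
  rw [h10]
  have h11 : (0 : ℝ) ≤ Γ.E.length := Nat.cast_nonneg _
  calc (Fintype.card (Par ι k m Γ.s) : ℝ) * (p * Γ.E.length) + #BB * Γ.E.length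
      ≤ Fintype.card (Par ι k m Γ.s) * (p * Γ.E.length) +
        (4 ^ Γ.s * δ * Fintype.card (Par ι k m Γ.s)) * Γ.E.length := by gcongr
    _ = _ := by ring

end Vale.Agent.P325.H111
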