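import Vale.Agent.P325.Stmt
import Vale.Agent.P333.NPDefs

/-!
# NP-hardness of the gap problem of Unique Games: the definition
-/

namespace Vale.Agent.P325

/-- The gap problem (value at least `c` against value at most `s`) of Unique Games over some fixed
alphabet `Fin K` is NP-hard: every language in NP has a reduction `f` to it which is computed by a
Turing machine in polynomial time and whose instances have polynomially many vertices and
constraints. -/
def UGHard (c s : ℝ) : Prop :=
  ∃ K : ℕ, 2 ≤ K ∧ ∀ L ∈ Vale.Agent.P333.classNP, ∃ f : List Bool → Inst K,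
    Nonempty (Turing.TM2ComputableInPolyTime (fun x : List Bool => x)
      (Inst.code : Inst K → List Bool) f) ∧
    (∃ A b : ℕ, ∀ x, (f x).size ≤ A * (x.length + 1) ^ b) ∧
    (∀ x ∈ L, c ≤ (f x).val) ∧ ∀ x ∉ L, (f x).val ≤ s

end Vale.Agent.P325
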