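import Vale.Agent.P325.H111.Names

/-!
# Instances from lists of named constraints
-/

namespace Vale.Agent.P325.H111

open Finset Vale.Agent.Lib.PolyTime

section

variable {β : Type} [DecidableEq β] {K : ℕ}

/-- The endpoints of a list of constraints. -/
def pts {γ : Type} (T : List (β × β × γ)) : List β := T.flatMap fun c => [c.1, c.2.1]

theorem mem_pts1 {γ : Type} {T : List (β × β × γ)} {c : β × β × γ} (h : c ∈ T) : c.1 ∈ pts T :=
  List.mem_flatMap.2 ⟨c, h, by simp⟩

theorem mem_pts2 {γ : Type} {T : List (β × β × γ)} {c : β × β × γ} (h : c ∈ T) : c.2.1 ∈ pts T :=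
  List.mem_flatMap.2 ⟨c, h, by simp⟩

theorem length_pts {γ : Type} (T : List (β × β × γ)) : (pts T).length = 2 * T.length := by
  unfold pts
  induction T with
  | nil => rfl
  | cons c T ih =>
    rw [List.flatMap_cons, List.length_append, ih]
    simp
    ring

/-- The instance of a list of named constraints; the number of a vertex is the index of the first
occurrence of its name. -/
def mkInst (T : List (β × β × Equiv.Perm (Fin K))) (h : T ≠ []) : Inst K where
  n := (pts T).length
  cons := T.attach.map fun c =>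
    (⟨(pts T).idxOf c.1.1, List.idxOf_lt_length_iff.2 (mem_pts1 c.2)⟩,
      ⟨(pts T).idxOf c.1.2.1, List.idxOf_lt_length_iff.2 (mem_pts2 c.2)⟩, c.1.2.2)
  ne := by simpa using h

theorem mkInst_length (T : List (β × β × Equiv.Perm (Fin K))) (h : T ≠ []) :
    (mkInst T h).cons.length = T.length := by simp [mkInst]

theorem mkInst_size (T : List (β × β × Equiv.Perm (Fin K))) (h : T ≠ []) :
    (mkInst T h).size = 3 * T.length := by
  rw [Inst.size, mkInst_length]
  show (pts T).length + _ = _
  rw [length_pts]
  ring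

theorem attach_countP {α : Type} (l : List α) (p : α → Bool) (q : {x // x ∈ l} → Bool)
    (h : ∀ x, q x = p x.1) : l.attach.countP q = l.countP p := by
  have h1 : q = p ∘ Subtype.val := funext h
  rw [h1, ← List.countP_map, List.attach_map_subtype_val]

theorem mkInst_sat (T : List (β × β × Equiv.Perm (Fin K))) (h : T ≠ [])
    (a : Fin (pts T).length → Fin K) (g : β → Fin K)
    (hg : ∀ b (hb : (pts T).idxOf b < (pts T).length), b ∈ pts T → a ⟨(pts T).idxOf b, hb⟩ = g b) :
    (mkInst T h).sat a = T.countP fun c => decide (g c.2.1 = c.2.2 (g c.1)) := by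
  unfold Inst.sat mkInst
  dsimp only
  rw [List.countP_map]
  refine attach_countP T _ _ fun c => ?_
  simp only [Function.comp]
  rw [hg _ _ (mem_pts1 c.2), hg _ _ (mem_pts2 c.2)]

theorem mkInst_val_ge (T : List (β × β × Equiv.Perm (Fin K))) (h : T ≠ []) (g : β → Fin K) :
    ((T.countP fun c => decide (g c.2.1 = c.2.2 (g c.1)) : ℕ) : ℝ) / T.length ≤
      (mkInst T h).val := by
  have h1 := mkInst_sat T h (fun i => g ((pts T).get i)) g (fun b hb _ => by
    simp)
  rw [← h1, ← mkInst_length T h]
  exact le_ciSup (f := fun a : Fin (mkInst T h).n → Fin K =>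
    ((mkInst T h).sat a : ℝ) / (mkInst T h).cons.length) (Set.finite_range _).bddAbove _

theorem mkInst_val_le [NeZero K] (T : List (β × β × Equiv.Perm (Fin K))) (h : T ≠ []) (s : ℝ)
    (hs : ∀ g : β → Fin K,
      ((T.countP fun c => decide (g c.2.1 = c.2.2 (g c.1)) : ℕ) : ℝ) ≤ s * T.length) :
    (mkInst T h).val ≤ s := by
  have hT : (0 : ℝ) < T.length := by
    have := List.length_pos_iff.2 h
    exact_mod_cast this
  refine ciSup_le fun a => ?_
  set g : β → Fin K := fun b => if hb : (pts T).idxOf b < (pts T).length then a ⟨_, hb⟩ else 0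
    with hg
  have h1 := mkInst_sat T h a g (fun b hb _ => by rw [hg]; simp only [dif_pos hb]; rfl)
  rw [mkInst_length, h1, div_le_iff₀ hT]
  exact hs g

/-! ### The code -/

/-- The numbers in the code of the instance. -/
def nums (T : List (β × β × List ℕ)) : List ℕ :=
  (pts T).length :: T.flatMap fun c => (pts T).idxOf c.1 :: (pts T).idxOf c.2.1 :: c.2.2

/-- The list of values of a permutation. -/
def permL (π : Equiv.Perm (Fin K)) : List ℕ := List.ofFn fun i => (π i : ℕ)

theorem pts_map {γ δ : Type} (f : γ → δ) (T : List (β × β × γ)) :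
    pts (T.map fun c => (c.1, c.2.1, f c.2.2)) = pts T := by
  simp only [pts, List.flatMap_map]

theorem flatMap_attach {α γ : Type} (l : List α) (f : α → List γ) :
    l.attach.flatMap (fun x => f x.1) = l.flatMap f := by
  conv_rhs => rw [← List.attach_map_subtype_val l]
  rw [List.flatMap_map]

theorem mkInst_code (T : List (β × β × Equiv.Perm (Fin K))) (h : T ≠ []) :
    (mkInst T h).code = word (nums (T.map fun c => (c.1, c.2.1, permL c.2.2))) := by
  unfold Inst.code nums mkInst
  rw [pts_map]
  dsimp only
  rw [List.flatMap_map, List.flatMap_map]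
  congr 2
  exact flatMap_attach T (fun c => (pts T).idxOf c.1 :: (pts T).idxOf c.2.1 :: permL c.2.2)

end

/-! ### Polynomial time -/

section

variable {A : Set Word} {α β γ : Type} [Enc α] [Enc β] [Enc γ]

theorem idxOf_eq_takeWhile {γ : Type} [DecidableEq γ] (l : List γ) (x : γ) :
    l.idxOf x = (l.takeWhile fun y => !decide (y = x)).length := by
  induction l with
  | nil => rfl
  | cons y l ih =>
    by_cases h : y = x
    · rw [List.idxOf_cons_eq _ h, List.takeWhile_cons]
      simp [h]
    · rw [List.idxOf_cons_ne _ h, List.takeWhile_cons, ih]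
      simp [h]

theorem PT_idxOf [EncInj γ] [DecidableEq γ] {l : α → List γ} {x : α → γ} (hl : PT A l)
    (hx : PT A x) : PT A (fun a => (l a).idxOf (x a)) :=
  (PT.length (PT.takeWhile (f := fun a y => !decide (y = x a)) hl
    (PT.not (PT.eq PT.snd' (hx.comp PT.fst'))))).congr fun a => (idxOf_eq_takeWhile _ _).symm

theorem PT_pts {T : α → List (β × β × γ)} [DecidableEq β] (hT : PT A T) :
    PT A (fun a => pts (T a)) :=
  PT.flatMap (f := fun (_ : α) (c : β × β × γ) => [c.1, c.2.1]) hT
    (PT.cons PT.snd'.fst (PT.cons PT.snd'.snd.fst (PT.const [])))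

theorem PT_nums [EncInj β] [DecidableEq β] {T : α → List (β × β × List ℕ)} (hT : PT A T) :
    PT A (fun a => nums (T a)) := by
  have hp : PT A (fun a => pts (T a)) := PT_pts hT
  refine PT.cons hp.length (PT.flatMap (f := fun a (c : β × β × List ℕ) =>
    (pts (T a)).idxOf c.1 :: (pts (T a)).idxOf c.2.1 :: c.2.2) hT ?_)
  have hp' : PT A (fun p : α × (β × β × List ℕ) => pts (T p.1)) := hp.comp PT.fst'
  exact PT.cons (PT_idxOf hp' PT.snd'.fst) (PT.cons (PT_idxOf hp' PT.snd'.snd.fst) PT.snd'.snd.snd)

theorem PT_word {l : α → List ℕ} (hl : PT A l) : PT A (fun a => Raw.mk (word (l a))) := by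
  refine PT.rawOfList ?_
  unfold word
  refine PT.flatMap (f := fun (_ : α) (m : ℕ) =>
    m.bits.flatMap (fun b => [true, b]) ++ [false]) hl ?_
  refine PT.append ?_ (PT.const _)
  exact PT.flatMap (f := fun (_ : α × ℕ) (b : Bool) => [true, b]) (PT.natBits PT.snd')
    (PT.cons (PT.const _) (PT.cons PT.snd' (PT.const [])))

end

end Vale.Agent.P325.H111
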