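import Vale.Agent.P325.Star.Gad
import Vale.Agent.P325.Stmt
import Vale.Agent.Lib.PCP.PT.Fin

/-!
# Names of the vertices, list form of the constraints, polynomial time
-/

namespace Vale.Agent.P325.H111

open Finset Vale.Agent.P325.Star Vale.Agent.Lib.PolyTime

variable {m k s a : ℕ}

/-- The numbering of the labels. -/
noncomputable def wc (m : ℕ) : (Fin m → F) ≃ Fin (2 ^ m) :=
  Fintype.equivFinOfCardEq (by simp [ZMod.card])

/-- The name of a symbol. -/
noncomputable def symNm : Sym (Fin m → F) → List ℕ
  | .zero => []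
  | .single x c => [x, wc m c]
  | .full e a b => [e.1.1, e.1.2.1, e.1.2.2, e.2.toNat, wc m a, wc m b]

theorem symNm_inj : Function.Injective (symNm (m := m)) := by
  intro s t h
  rcases s with _ | ⟨x, c⟩ | ⟨⟨⟨x1, x2, x3⟩, b⟩, n1, n2⟩ <;>
    rcases t with _ | ⟨y, d⟩ | ⟨⟨⟨y1, y2, y3⟩, b'⟩, n1', n2'⟩ <;>
    simp only [symNm, List.cons.injEq, List.nil_eq, List.cons_ne_nil, and_true, and_false,
      Fin.val_inj, EmbeddingLike.apply_eq_iff_eq] at h
  · rfl
  · rw [h.1, h.2]
  · obtain ⟨rfl, rfl, rfl, h, rfl, rfl⟩ := h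
    have : b = b' := by cases b <;> cases b' <;> simp_all
    rw [this]

/-- The name of a tuple of symbols. -/
noncomputable def objNm (t : Fin k → Sym (Fin m → F)) : List (List ℕ) :=
  [0] :: List.ofFn fun i => symNm (t i)

/-- The constants of a copy of a gadget. -/
abbrev SK (m k s : ℕ) : Type :=
  (Fin k → (Fin m → F) × (Fin m → F)) × (Fin m → F) × (Fin s → Fin k → F × F)

/-- The numbering of the constants. -/
noncomputable def kc (m k s : ℕ) : SK m k s ≃ Fin (Fintype.card (SK m k s)) :=
  Fintype.equivFin _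

/-- The name of a private vertex of a copy of the gadget. -/
noncomputable def prvNm {n : ℕ} (P : Par (Fin n) k m s) (i : Fin a) : List (List ℕ) :=
  [1, (kc m k s P.2 : ℕ), (i : ℕ)] :: List.ofFn fun j => [(P.1 j : ℕ)]

/-- The vertices of the instance. -/
abbrev Vx (n m k s a : ℕ) : Type := (Fin k → Sym (Fin m → F)) ⊕ (Par (Fin n) k m s × Fin a)

/-- The names of all vertices. -/
noncomputable def vNm {n : ℕ} : Vx n m k s a → List (List ℕ) :=
  Sum.elim objNm fun p => prvNm p.1 p.2

theorem vNm_inj {n : ℕ} : Function.Injective (vNm (n := n) (m := m) (k := k) (s := s) (a := a)) := by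
  intro x y h
  rcases x with x | ⟨P, i⟩ <;> rcases y with y | ⟨Q, j⟩
  · simp only [vNm, Sum.elim_inl, objNm, List.cons.injEq, true_and] at h
    have h1 := List.ofFn_injective h
    congr 1
    funext i
    exact symNm_inj (congrFun h1 i)
  · simp [vNm, objNm, prvNm] at h
  · simp [vNm, objNm, prvNm] at h
  · simp only [vNm, Sum.elim_inr, prvNm, List.cons.injEq, and_true, true_and,
      Fin.val_inj, EmbeddingLike.apply_eq_iff_eq] at h
    obtain ⟨⟨h0, h1⟩, h2⟩ := h
    have h2 := List.ofFn_injective h2
    have h3 : P.1 = Q.1 := by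
      funext i
      have := congrFun h2 i
      simpa [Fin.val_inj] using this
    have h4 : P = Q := Prod.ext h3 h0
    rw [h4, h1]

/-! ### List forms -/

/-- The equations of a list of numbered equations. -/
def eqs (us : List (Eqn × ℕ)) : List Eqn := us.map Prod.fst

/-- The name of the tuple of symbols of the coefficients `ns` and the equations `es`. -/
noncomputable def objL (ns : List ((Fin m → F) × (Fin m → F))) (es : List Eqn) : List (List ℕ) :=
  [0] :: List.zipWith (fun n e => symNm (symF e n)) ns es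

/-- The name of a private vertex. -/
def prvL (j i : ℕ) (us : List (Eqn × ℕ)) : List (List ℕ) :=
  [1, j, i] :: us.map fun u => [u.2]

/-- A function of the total shift. -/
def shL {γ : Type} (h : (Fin m → F) → γ) (ns : List ((Fin m → F) × (Fin m → F)))
    (t : Fin m → F) (es : List Eqn) : γ :=
  h (t - (List.zipWith (fun n e => shF e n) ns es).sum)

theorem objL_ofFn (n : Fin k → (Fin m → F) × (Fin m → F)) (e : Fin k → Eqn) :
    objL (List.ofFn n) (List.ofFn e) = objNm fun i => symF (e i) (n i) := by
  simp only [objL, objNm, List.cons.injEq, true_and]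
  apply List.ext_getElem <;> simp

theorem shL_ofFn {γ : Type} (h : (Fin m → F) → γ) (t : Fin m → F)
    (n : Fin k → (Fin m → F) × (Fin m → F)) (e : Fin k → Eqn) :
    shL h (List.ofFn n) t (List.ofFn e) = h (t - ∑ i, shF (e i) (n i)) := by
  have : List.zipWith (fun n e => shF e n) (List.ofFn n) (List.ofFn e) =
      List.ofFn fun i => shF (e i) (n i) := by
    apply List.ext_getElem <;> simp
  rw [shL, this, List.sum_ofFn]

/-! ### Polynomial time -/

variable {A : Set Word} {α β γ δ : Type} [Enc α] [Enc β] [Enc γ] [Enc δ]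

theorem PT_symNm (n : (Fin m → F) × (Fin m → F)) : PT A (fun e : Eqn => symNm (symF e n)) := by
  have h3 : PT A (fun e : Eqn => [e.1.1, e.1.2.1, e.1.2.2, e.2.toNat, (wc m n.1 : ℕ),
      (wc m n.2 : ℕ)]) := by
    have h0 : PT A (fun e : Eqn => e.2.toNat) := PT.finComp Bool.toNat PT.id.snd
    have h1 : PT A (fun e : Eqn => e.1) := PT.id.fst
    exact PT.cons h1.fst (PT.cons h1.snd.fst (PT.cons h1.snd.snd (PT.cons h0 (PT.const _))))
  have h1 : PT A (fun e : Eqn => e.1) := PT.id.fst
  by_cases a : n.2 = 0
  · by_cases b : n.1 = 0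
    · exact (PT.const []).congr fun e => by simp [symF, a, b, symNm]
    · exact (PT.cons h1.fst (PT.const [(wc m n.1 : ℕ)])).congr fun e => by
        simp [symF, a, b, symNm]
  · by_cases b : n.1 = 0
    · exact (PT.cons h1.snd.fst (PT.const [(wc m n.2 : ℕ)])).congr fun e => by
        simp [symF, a, b, symNm]
    · by_cases c : n.1 = n.2
      · exact (PT.cons h1.snd.snd (PT.const [(wc m n.1 : ℕ)])).congr fun e => by
          have hb := b
          simp [symF, ← c, symNm, hb]
      · exact h3.congr fun e => by simp [symF, a, b, c, symNm]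

theorem PT_zipWithConst {κ : Type} {f : κ → β → γ} (hf : ∀ x, PT A (f x)) (l : List κ)
    {g : α → List β} (hg : PT A g) : PT A (fun a => List.zipWith f l (g a)) := by
  induction l generalizing α with
  | nil => exact (PT.const []).congr fun a => by simp
  | cons x l ih =>
    refine (PT.listCase hg (PT.const []) (g := fun _ b t => f x b :: List.zipWith f l t)
      (PT.cons ((hf x).comp PT.snd'.fst) (ih PT.snd'.snd))).congr fun a => ?_
    rcases g a with _ | ⟨b, t⟩ <;> simp

theorem PT_objL (ns : List ((Fin m → F) × (Fin m → F))) {g : α → List Eqn} (hg : PT A g) :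
    PT A (fun a => objL ns (g a)) :=
  PT.cons (PT.const _) (PT_zipWithConst (f := fun n e => symNm (symF e n)) PT_symNm ns hg)

theorem PT_eqs {g : α → List (Eqn × ℕ)} (hg : PT A g) : PT A (fun a => eqs (g a)) :=
  PT.map (f := fun (_ : α) (u : Eqn × ℕ) => u.1) hg PT.snd'.fst

theorem PT_prvL (j i : ℕ) {g : α → List (Eqn × ℕ)} (hg : PT A g) :
    PT A (fun a => prvL j i (g a)) :=
  PT.cons (PT.const _) (PT.map (f := fun (_ : α) (u : Eqn × ℕ) => [u.2]) hg
    (PT.cons PT.snd'.snd (PT.const [])))

theorem PT_shL (h : (Fin m → F) → γ) (ns : List ((Fin m → F) × (Fin m → F))) (t : Fin m → F)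
    {g : α → List Eqn} (hg : PT A g) : PT A (fun a => shL h ns t (g a)) := by
  induction ns generalizing α t with
  | nil => exact (PT.const (h t)).congr fun a => by simp [shL]
  | cons n ns ih =>
    have h1 : PT A (fun p : α × Eqn × List Eqn =>
        if p.2.1.2 = true then shL h ns (t - (if n.1 = n.2 then n.1 else 0)) p.2.2
        else shL h ns t p.2.2) :=
      PT.ite (p := fun p : α × Eqn × List Eqn => p.2.1.2 = true)
        ((PT.snd'.fst.snd).congr fun p => by simp) (ih _ PT.snd'.snd) (ih _ PT.snd'.snd)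
    refine (PT.listCase hg (PT.const (h t)) (g := fun _ e l =>
        if e.2 = true then shL h ns (t - (if n.1 = n.2 then n.1 else 0)) l
        else shL h ns t l) h1).congr fun a => ?_
    rcases g a with _ | ⟨e, l⟩
    · simp [shL]
    · rcases e with ⟨x, b⟩
      cases b
      · simp [shL, shF, Eqn.rhs]
      · simp [shL, shF, Eqn.rhs, sub_sub]

end Vale.Agent.P325.H111
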