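import Vale.Agent.P325.H111.Copies
import Vale.Agent.P325.H111.Hard
import Vale.Agent.P333.NP.Main

/-!
# The reduction
-/

namespace Vale.Agent.P325.H111

open Finset Vale.Agent.P325.Star Vale.Agent.Lib.PolyTime Vale.Agent.P333.NP

variable {m k : ℕ} (Γ : Gad)

theorem card_viol (Φ : List Eqn) (x : ℕ → Bool) :
    #{i : Fin Φ.length | Eqn.Viol x (Φ.get i)} = Vale.Agent.P333.violated x Φ := by
  have h1 : ∀ e : Eqn, ((xor (x e.1.1) (xor (x e.1.2.1) (x e.1.2.2))) != e.2) =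
      decide (Eqn.Viol x e) := by
    intro e
    have h0 : ∀ a b c d : Bool, (xor a (xor b c) != d) = true ↔ xor (xor a b) c ≠ d := by decide
    rw [Bool.eq_iff_iff, decide_eq_true_iff, h0]
    rfl
  unfold Vale.Agent.P333.violated
  simp only [h1]
  rw [countP_eq_sum, Finset.card_filter]
  have h2 : Φ = (List.finRange Φ.length).map Φ.get := by
    apply List.ext_getElem <;> simp
  have h3 : (Φ.map fun e => if decide (Eqn.Viol x e) = true then 1 else 0).sum =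
      (((List.finRange Φ.length).map Φ.get).map
        fun e => if decide (Eqn.Viol x e) = true then 1 else 0).sum := by
    rw [← h2]
  rw [h3, List.map_map, ← List.ofFn_eq_map, List.sum_ofFn]
  exact Finset.sum_congr rfl fun i _ => by simp

theorem exists_assign (Φ : List Eqn) : ∃ x : ℕ → Bool,
    #{i : Fin Φ.length | Eqn.Viol x (Φ.get i)} = Vale.Agent.P333.minViolated Φ := by
  have h1 : ({n : ℕ | ∃ x : ℕ → Bool, Vale.Agent.P333.violated x Φ = n}).Nonempty :=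
    ⟨_, fun _ => false, rfl⟩
  obtain ⟨x, hx⟩ := Nat.sInf_mem h1
  exact ⟨x, (card_viol Φ x).trans hx⟩

theorem minViolated_le (Φ : List Eqn) (x : ℕ → Bool) :
    Vale.Agent.P333.minViolated Φ ≤ #{i : Fin Φ.length | Eqn.Viol x (Φ.get i)} :=
  (card_viol Φ x).symm ▸ Nat.sInf_le ⟨x, rfl⟩

theorem card_par_pos (Φ : List Eqn) (h : Φ ≠ []) :
    0 < Fintype.card (Par (Fin Φ.length) k m Γ.s) := by
  have : Nonempty (Fin Φ.length) := ⟨⟨0, List.length_pos_iff.2 h⟩⟩
  exact Fintype.card_pos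

theorem nmd_ne (hE : Γ.E ≠ []) (Φ : List Eqn) (h : Φ ≠ []) : nmd Γ m k Φ.get ≠ [] := by
  have h1 := length_nmd Γ (m := m) (k := k) Φ.get
  rw [← List.length_pos_iff, h1]
  exact Nat.mul_pos (card_par_pos Γ Φ h) (List.length_pos_iff.2 hE)

theorem card_par (n : ℕ) :
    Fintype.card (Par (Fin n) k m Γ.s) = n ^ k * Fintype.card (SK m k Γ.s) := by
  rw [Fintype.card_prod]
  simp

/-- The instance for a nonempty system. -/
noncomputable def ugI (m k : ℕ) (hE : Γ.E ≠ []) (Φ : List Eqn) (h : Φ ≠ []) : Inst (2 ^ m) :=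
  mkInst (nmd Γ m k Φ.get) (nmd_ne Γ hE Φ h)

theorem ugI_size (hE : Γ.E ≠ []) (Φ : List Eqn) (h : Φ ≠ []) :
    (ugI Γ m k hE Φ h).size = 3 * (Φ.length ^ k * Fintype.card (SK m k Γ.s) * Γ.E.length) := by
  rw [ugI, mkInst_size, length_nmd, card_par]

theorem ugI_code (hE : Γ.E ≠ []) (Φ : List Eqn) (h : Φ ≠ []) :
    (ugI Γ m k hE Φ h).code = word (nums (tabL Γ m k Φ)) := by
  rw [ugI, mkInst_code, tabL_eq]

theorem ugI_val_ge (hE : Γ.E ≠ []) (Φ : List Eqn) (h : Φ ≠ []) (c : ℝ)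
    (f : (Fin k → Sym (Fin m → F)) → (Fin m → F))
    (g : Par (Fin Φ.length) k m Γ.s → Fin Γ.a → (Fin m → F))
    (hfg : c * (Fintype.card (Par (Fin Φ.length) k m Γ.s) * Γ.E.length) ≤
      ∑ P : Par (Fin Φ.length) k m Γ.s, (Γ.num P.2.2.1 (termL Φ.get f P) (g P) : ℝ)) :
    c ≤ (ugI Γ m k hE Φ h).val := by
  have hne : Nonempty (Fin Φ.length) := ⟨⟨0, List.length_pos_iff.2 h⟩⟩
  have hpos : (0 : ℝ) < Fintype.card (Par (Fin Φ.length) k m Γ.s) * Γ.E.length := by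
    have h1 := card_par_pos (m := m) (k := k) Γ Φ h
    have h2 := List.length_pos_iff.2 hE
    exact_mod_cast Nat.mul_pos h1 h2
  set G0 : Vx Φ.length m k Γ.s Γ.a → Fin (2 ^ m) :=
    Sum.elim (fun o => wc m (f o)) (fun p => wc m (g p.1 p.2)) with hG0
  set G : List (List ℕ) → Fin (2 ^ m) := Function.extend vNm G0 (fun _ => wc m 0) with hG
  have hG1 : ∀ v : Vx Φ.length m k Γ.s Γ.a, G (vNm v) = G0 v := fun v =>
    vNm_inj.extend_apply _ _ v
  have h1 := mkInst_val_ge (nmd Γ m k Φ.get) (nmd_ne Γ hE Φ h) G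
  refine le_trans ?_ h1
  rw [countP_nmd, length_nmd]
  simp only [hG1, hG0, Sum.elim_inl, Sum.elim_inr, Equiv.symm_apply_apply]
  push_cast
  rw [le_div_iff₀ hpos]
  exact hfg

theorem ugI_val_le (hE : Γ.E ≠ []) (Φ : List Eqn) (h : Φ ≠ []) (t : ℝ)
    (hfg : ∀ (f : (Fin k → Sym (Fin m → F)) → (Fin m → F))
      (g : Par (Fin Φ.length) k m Γ.s → Fin Γ.a → (Fin m → F)),
      ∑ P : Par (Fin Φ.length) k m Γ.s, (Γ.num P.2.2.1 (termL Φ.get f P) (g P) : ℝ) ≤
        t * (Fintype.card (Par (Fin Φ.length) k m Γ.s) * Γ.E.length)) :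
    (ugI Γ m k hE Φ h).val ≤ t := by
  have : NeZero (2 ^ m) := ⟨by positivity⟩
  refine mkInst_val_le _ _ t fun G => ?_
  rw [countP_nmd, length_nmd]
  push_cast
  exact hfg _ fun P i => (wc m).symm (G (vNm (.inr (P, i) : Vx Φ.length m k Γ.s Γ.a)))

/-- In the core theorem the alphabet is not trivial. -/
theorem pos_of_core {δ : ℝ} (hδ : δ < 1)
    (hC : ∀ (ι : Type) [Fintype ι] [Nonempty ι] (q : ι → Eqn),
    (∀ x : ℕ → Bool, 1 / 4 * Fintype.card ι ≤ (#{i | (q i).Viol x} : ℝ)) →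
  ∀ f : (Fin k → Sym (Fin m → F)) → (Fin m → F),
    (#{p : (Fin k → ι) × (Fin k → (Fin m → F) × (Fin m → F)) × (Fin m → F) × (Fin k → F × F) |
        tabU f (fun i => q (p.1 i)) (bump p.2.1 p.2.2.1 p.2.2.2) =
          tabU f (fun i => q (p.1 i)) p.2.1 ∨
        tabU f (fun i => q (p.1 i)) (bump p.2.1 p.2.2.1 p.2.2.2) =
          tabU f (fun i => q (p.1 i)) p.2.1 + p.2.2.1} : ℝ) ≤
      δ * Fintype.card
        ((Fin k → ι) × (Fin k → (Fin m → F) × (Fin m → F)) × (Fin m → F) × (Fin k → F × F))) :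
    m ≠ 0 := by
  rintro rfl
  have h1 := hC Bool (fun b => ((0, 0, 0), b)) (fun x => by
    have h2 : 1 ≤ #{i : Bool | Eqn.Viol x ((0, 0, 0), i)} := by
      rw [Nat.one_le_iff_ne_zero, ← Nat.pos_iff_ne_zero, Finset.card_pos]
      refine ⟨!(xor (xor (x 0) (x 0)) (x 0)), ?_⟩
      simp [Eqn.Viol]
    have h3 : (1 : ℝ) ≤ #{i : Bool | Eqn.Viol x ((0, 0, 0), i)} := by exact_mod_cast h2
    refine le_trans ?_ h3
    norm_num) (fun _ => 0)
  have h4 : ∀ v w : Fin 0 → F, v = w := fun v w => Subsingleton.elim _ _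
  have h5 : #{p : (Fin k → Bool) × (Fin k → (Fin 0 → F) × (Fin 0 → F)) × (Fin 0 → F) ×
      (Fin k → F × F) |
        tabU (fun _ => (0 : Fin 0 → F)) (fun i => (((0, 0, 0), p.1 i) : Eqn))
          (bump p.2.1 p.2.2.1 p.2.2.2) =
          tabU (fun _ => 0) (fun i => ((0, 0, 0), p.1 i)) p.2.1 ∨
        tabU (fun _ => 0) (fun i => ((0, 0, 0), p.1 i)) (bump p.2.1 p.2.2.1 p.2.2.2) =
          tabU (fun _ => 0) (fun i => ((0, 0, 0), p.1 i)) p.2.1 + p.2.2.1} =
      Fintype.card ((Fin k → Bool) × (Fin k → (Fin 0 → F) × (Fin 0 → F)) × (Fin 0 → F) ×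
        (Fin k → F × F)) := by
    rw [← Finset.card_univ]
    congr 1
    refine Finset.filter_true_of_mem fun p _ => Or.inl (h4 _ _)
  rw [h5] at h1
  have h6 : (0 : ℝ) < Fintype.card ((Fin k → Bool) × (Fin k → (Fin 0 → F) × (Fin 0 → F)) ×
      (Fin 0 → F) × (Fin k → F × F)) := by
    exact_mod_cast Fintype.card_pos
  nlinarith

/-- The reduction. -/
theorem gad_hard (hC : Core) (h1 : GadComplete) (h2 : GadSound) (hs : 1 ≤ Γ.s) (hE : Γ.E ≠ []) (p t : ℝ)
    (hp0 : 0 ≤ p) (hp : Γ.Yes p) (ht : Γ.No t) (η : ℝ) (hη : 0 < η) : UGHard (p - η) (t + η) := by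
  set δ : ℝ := min (η / 4 ^ Γ.s) (1 / 2) with hδ
  have hδ0 : 0 < δ := lt_min (by positivity) (by norm_num)
  obtain ⟨m, k, hmk⟩ := hC δ (1 / 4) hδ0 (by norm_num)
  have hm : m ≠ 0 := pos_of_core (lt_of_le_of_lt (min_le_right _ _) (by norm_num)) hmk
  set ε : ℝ := min (1 / 4) (η / (k * p + 1)) with hε
  have hkp : 0 ≤ (k : ℝ) * p := by positivity
  have hε0 : 0 < ε := lt_min (by norm_num) (by positivity)
  have hεη : k * ε * p ≤ η := by
    have h3 : ε ≤ η / (k * p + 1) := min_le_right _ _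
    have h4 : ε * (k * p + 1) ≤ η := by rwa [le_div_iff₀ (by positivity)] at h3
    nlinarith
  refine ⟨2 ^ m, Nat.le_self_pow hm 2, fun L hL => ?_⟩
  obtain ⟨d, Φ, g, hg, hg', hΦ⟩ := np_gap hL hε0
  have hne : ∀ x, Φ x ≠ [] := fun x => (hΦ x).1
  refine ⟨fun x => ugI Γ m k hE (Φ x) (hne x), ?_, ?_, ?_, ?_⟩
  · -- the machine
    have h3 : PT ∅ (fun Φ : List Eqn => Raw.mk (word (nums (tabL Γ m k Φ)))) :=
      PT_word (PT_nums (PT_tabL Γ PT.id))
    obtain ⟨G, hG, hG'⟩ := h3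
    refine tm2_of_polyTimeFun _ _ _ (fun x => G (g x)) (polyTimeFun_iff.2 (hG.comp hg))
      fun x => ?_
    rw [hg', ugI_code]
    exact hG' _
  · -- the size
    obtain ⟨T, hT, -, hgT⟩ := hg.length_le
    obtain ⟨c, hc⟩ := hT
    have hlen : ∀ x, (Φ x).length ≤ pb c x.length := fun x => by
      have h3 := length_le_esize (Φ x)
      have h4 := hgT x
      rw [hg'] at h4
      exact h3.trans (h4.trans (hc _))
    refine ⟨3 * ((2 ^ c) ^ k * Fintype.card (SK m k Γ.s) * Γ.E.length), c * k, fun x => ?_⟩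
    rw [ugI_size]
    have h3 : (Φ x).length ^ k ≤ (2 ^ c) ^ k * (x.length + 1) ^ (c * k) := by
      rw [pow_mul, ← mul_pow, ← mul_pow]
      exact Nat.pow_le_pow_left ((hlen x).trans (Nat.pow_le_pow_left (by omega) c)) k
    calc 3 * ((Φ x).length ^ k * Fintype.card (SK m k Γ.s) * Γ.E.length)
        ≤ 3 * ((2 ^ c) ^ k * (x.length + 1) ^ (c * k) * Fintype.card (SK m k Γ.s) *
          Γ.E.length) := by gcongr
      _ = _ := by ring
  · -- completeness
    intro x hx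
    obtain ⟨y, hy⟩ := exists_assign (Φ x)
    have h3 := (hΦ x).2.2.1 hx
    rw [← hy] at h3
    have : Nonempty (Fin (Φ x).length) := ⟨⟨0, List.length_pos_iff.2 (hne x)⟩⟩
    obtain ⟨f, g', hfg⟩ := h1 Γ p hp0 hp k m ε (Fin (Φ x).length) (Φ x).get y (by
      rw [Fintype.card_fin]
      exact h3)
    refine ugI_val_ge Γ hE (Φ x) (hne x) _ f g' (le_trans ?_ hfg)
    refine mul_le_mul_of_nonneg_right ?_ (by positivity)
    nlinarith
  · -- soundness
    intro x hx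
    have h3 := (hΦ x).2.2.2 hx
    have : Nonempty (Fin (Φ x).length) := ⟨⟨0, List.length_pos_iff.2 (hne x)⟩⟩
    refine ugI_val_le Γ hE (Φ x) (hne x) _ fun f g' => ?_
    have h5 := hmk (Fin (Φ x).length) (Φ x).get (fun y => by
      rw [Fintype.card_fin]
      have h6 : (Vale.Agent.P333.minViolated (Φ x) : ℝ) ≤
          #{i : Fin (Φ x).length | Eqn.Viol y ((Φ x).get i)} := by
        exact_mod_cast minViolated_le (Φ x) y
      have h7 : ε ≤ 1 / 4 := min_le_left _ _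
      have h8 : (0 : ℝ) ≤ (Φ x).length := Nat.cast_nonneg _
      nlinarith) f
    refine (h2 Γ t hs ht k m δ (Fin (Φ x).length) (Φ x).get f h5 g').trans ?_
    refine mul_le_mul_of_nonneg_right ?_ (by positivity)
    have h9 : δ ≤ η / 4 ^ Γ.s := min_le_left _ _
    have h10 : (4 : ℝ) ^ Γ.s * δ ≤ η := by
      have h11 : (0 : ℝ) < 4 ^ Γ.s := by positivity
      rw [le_div_iff₀ h11] at h9
      linarith
    linarith

end Vale.Agent.P325.H111
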