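import Vale.Agent.P325.H111.GadC

/-!
# The parameters of the star
-/

namespace Vale.Agent.P325.H111

open Finset Vale.Agent.P325.Star

/-- The sign of an element. -/
def sg (a : F) : ℤ := if a = 0 then 1 else -1

theorem sg_add : ∀ a b : F, sg (a + b) = sg a * sg b := by decide

theorem sg_sum {α : Type} (s : Finset α) (h : α → F) : sg (∑ i ∈ s, h i) = ∏ i ∈ s, sg (h i) := by
  classical
  induction s using Finset.induction_on with
  | empty => simp [sg]
  | insert a s ha ih => rw [sum_insert ha, prod_insert ha, sg_add, ih]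

theorem card_zero {α : Type} [Fintype α] (h : α → F) :
    2 * (#{b | h b = 0} : ℤ) = Fintype.card α + ∑ b, sg (h b) := by
  have h1 : ∑ b, sg (h b) = ∑ b, ((2 : ℤ) * (if h b = 0 then 1 else 0) - 1) := by
    refine sum_congr rfl fun b _ => ?_
    unfold sg
    split_ifs <;> norm_num
  rw [h1, sum_sub_distrib, ← mul_sum, sum_boole, sum_const, card_univ]
  simp

theorem sum_sg (r : ℕ) (t t' : Fin r → F) :
    ∑ b : (Fin r → F) × (Fin r → F), sg (∑ i, (b.1 i + t' i) * (b.2 i + t i)) = 2 ^ r := by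
  have h1 : ∀ a a' : F, ∑ z : F × F, sg ((z.1 + a') * (z.2 + a)) = 2 := by decide
  calc ∑ b : (Fin r → F) × (Fin r → F), sg (∑ i, (b.1 i + t' i) * (b.2 i + t i))
      = ∑ b : Fin r → F × F, ∏ i, sg (((b i).1 + t' i) * ((b i).2 + t i)) := by
        rw [← (Equiv.arrowProdEquivProdArrow (Fin r) (fun _ => F) (fun _ => F)).sum_comp]
        refine sum_congr rfl fun b _ => ?_
        rw [sg_sum]
        rfl
    _ = ∏ i : Fin r, ∑ z : F × F, sg ((z.1 + t' i) * (z.2 + t i)) := by
        rw [Finset.prod_univ_sum]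
        simp
    _ = 2 ^ r := by simp [h1]

/-- The quadratic form on the terminals. -/
def qf (r : ℕ) (b : Fin (r + r) → F) : F :=
  ∑ i : Fin r, b (Fin.castAdd r i) * b (Fin.natAdd r i)

theorem num_star (r : ℕ) {W : Type} [AddCommGroup W] [Module F W] [DecidableEq W] (c : W)
    (τ : (Fin (r + r) → F) → W) (g : Fin 1 → W) :
    (starGad r).num c τ g = #{b : Fin (r + r) → F | g 0 + τ b = qf r b • c} := by
  have h1 : (starGad r).num c τ g = ((univ : Finset (Fin (r + r) → F)).toList.map fun b =>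
    ((Sum.inr 0, Sum.inl b, qf r b) : ((Fin (r + r) → F) ⊕ Fin 1) × ((Fin (r + r) → F) ⊕ Fin 1) ×
      F)).countP fun e => decide (Sum.elim τ g e.1 + Sum.elim τ g e.2.1 = e.2.2 • c) := rfl
  rw [h1, List.countP_map]
  have h2 : ((fun e : ((Fin (r + r) → F) ⊕ Fin 1) × ((Fin (r + r) → F) ⊕ Fin 1) × F =>
      decide (Sum.elim τ g e.1 + Sum.elim τ g e.2.1 = e.2.2 • c)) ∘ fun b =>
      ((Sum.inr 0, Sum.inl b, qf r b) : ((Fin (r + r) → F) ⊕ Fin 1) ×
        ((Fin (r + r) → F) ⊕ Fin 1) × F)) = fun b => decide (g 0 + τ b = qf r b • c) := rfl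
  rw [h2, ← Multiset.coe_countP, coe_toList, Multiset.countP_eq_card_filter]
  simp only [Finset.card, Finset.filter_val]

theorem star_length (r : ℕ) : (starGad r).E.length = 4 ^ r := by
  have h1 : (starGad r).E.length = ((univ : Finset (Fin (r + r) → F)).toList.map fun b =>
    ((Sum.inr 0, Sum.inl b, qf r b) : ((Fin (r + r) → F) ⊕ Fin 1) × ((Fin (r + r) → F) ⊕ Fin 1) ×
      F)).length := rfl
  rw [h1, List.length_map, length_toList, card_univ]
  simp only [Fintype.card_pi, ZMod.card, prod_const, card_univ, Fintype.card_fin, pow_add]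
  rw [← mul_pow]
  norm_num

theorem star_yes (r : ℕ) (t : Fin (r + r) → F) :
    2 * (#{b : Fin (r + r) → F | (∑ i, t (Fin.castAdd r i) * t (Fin.natAdd r i)) + b ⬝ᵥ t =
      qf r b} : ℤ) = 4 ^ r + 2 ^ r := by
  let t1 : Fin r → F := fun i => t (Fin.castAdd r i)
  let t2 : Fin r → F := fun i => t (Fin.natAdd r i)
  have e1 : #{b : Fin (r + r) → F | (∑ i, t (Fin.castAdd r i) * t (Fin.natAdd r i)) + b ⬝ᵥ t =
      qf r b} = #{b : (Fin r → F) × (Fin r → F) | ∑ i, (b.1 i + t2 i) * (b.2 i + t1 i) = 0} := by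
    apply card_equiv (Fin.appendEquiv r r).symm
    intro b
    simp only [mem_filter, mem_univ, true_and]
    have h2 : b ⬝ᵥ t = ∑ i, b (Fin.castAdd r i) * t1 i + ∑ i, b (Fin.natAdd r i) * t2 i := by
      unfold dotProduct
      rw [Fin.sum_univ_add]
    have h3 : ∀ i, ((Fin.appendEquiv r r).symm b).1 i = b (Fin.castAdd r i) := fun i => rfl
    have h4 : ∀ i, ((Fin.appendEquiv r r).symm b).2 i = b (Fin.natAdd r i) := fun i => rfl
    simp only [h3, h4]
    have h5 : ∑ i, (b (Fin.castAdd r i) + t2 i) * (b (Fin.natAdd r i) + t1 i) =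
        ((∑ i, t1 i * t2 i) + b ⬝ᵥ t) + qf r b := by
      rw [h2, qf, ← sum_add_distrib, ← sum_add_distrib, ← sum_add_distrib]
      exact sum_congr rfl fun i _ => by ring
    rw [h5]
    have h6 : ∀ a b : F, a = b ↔ a + b = 0 := by decide
    exact h6 _ _
  rw [e1, card_zero, sum_sg]
  congr 1
  simp only [Fintype.card_prod, Fintype.card_pi, ZMod.card, prod_const, card_univ,
    Fintype.card_fin]
  push_cast
  rw [← mul_pow]
  norm_num

theorem star_yes' (r : ℕ) (t : Fin (r + r) → F) : ∃ g : Fin 1 → F,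
    (1 / 2 + (1 / 2) ^ (r + 1) : ℝ) * (starGad r).E.length ≤
      (starGad r).num (1 : F) (fun l : Fin (r + r) → F => l ⬝ᵥ t) g := by
  refine ⟨fun _ => ∑ i, t (Fin.castAdd r i) * t (Fin.natAdd r i), ?_⟩
  have h1 := num_star r (1 : F) (fun l => l ⬝ᵥ t)
    (fun _ => ∑ i, t (Fin.castAdd r i) * t (Fin.natAdd r i))
  simp only [smul_eq_mul, mul_one] at h1
  have h2 := star_yes r t
  rw [h1, star_length]
  have h3 : (2 : ℝ) * #{b : Fin (r + r) → F |
      (∑ i, t (Fin.castAdd r i) * t (Fin.natAdd r i)) + b ⬝ᵥ t = qf r b} = 4 ^ r + 2 ^ r := by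
    exact_mod_cast h2
  have h4 : ((1 : ℝ) / 2) ^ r * 4 ^ r = 2 ^ r := by
    rw [← mul_pow]; norm_num
  push_cast
  rw [pow_succ]
  nlinarith

theorem star_no (r : ℕ) (W : Type) [AddCommGroup W] [Module F W] [DecidableEq W] (c : W)
    (τ : (Fin (r + r) → F) → W) (g : Fin 1 → W)
    (hτ : ∀ l l', l ≠ l' → τ l' ≠ τ l ∧ τ l' ≠ τ l + c) :
    ((starGad r).num c τ g : ℝ) ≤ (1 / 4) ^ r * (starGad r).E.length := by
  have h1 := num_star r c τ g
  rw [h1, star_length]
  have h2 : #{b : Fin (r + r) → F | g 0 + τ b = qf r b • c} ≤ 1 := by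
    rw [card_le_one]
    intro b hb b' hb'
    simp only [mem_filter, mem_univ, true_and] at hb hb'
    by_contra hne
    have h3 : τ b' = τ b + (qf r b + qf r b') • c := by
      have h4 : (g 0 + τ b) + (g 0 + τ b') = (qf r b + qf r b') • c := by
        rw [hb, hb', add_smul]
      have h5 : τ b + τ b' = (qf r b + qf r b') • c := by
        rw [← h4]
        calc τ b + τ b' = (g 0 + g 0) + (τ b + τ b') := by rw [add_self_W, zero_add]
          _ = _ := by abel
      rw [← h5, ← add_assoc, add_self_W, zero_add]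
    have h6 : ∀ a : F, a = 0 ∨ a = 1 := by decide
    rcases h6 (qf r b + qf r b') with h | h
    · rw [h, zero_smul, add_zero] at h3
      exact (hτ b b' hne).1 h3
    · rw [h, one_smul] at h3
      exact (hτ b b' hne).2 h3
  have h3 : ((1 : ℝ) / 4) ^ r * ((4 ^ r : ℕ) : ℝ) = 1 := by
    push_cast
    rw [← mul_pow]
    norm_num
  rw [h3]
  exact_mod_cast h2

theorem starVals : StarVals := fun r => ⟨fun t => star_yes' r t, fun W _ _ _ c τ g _ hτ =>
  star_no r W c τ g hτ⟩

end Vale.Agent.P325.H111
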