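import Vale.Agent.P325.H111.Red
import Vale.Agent.P325.H111.GadS
import Vale.Agent.P325.H111.StarV
import Vale.Agent.P325.H424.CoreExp
import Vale.Agent.P325.H792.Main

/-!
# Hardness from gadgets and from stars
-/

namespace Vale.Agent.P325.H111

open Vale.Agent.P325.Star

/-- The core theorem. -/
theorem core : Core := H424.core_of_expansion H792.expansion

/-- Hardness from a gadget. -/
theorem hard_of_gad (Γ : Gad) (hs : 1 ≤ Γ.s) (hE : Γ.E ≠ []) (p t : ℝ) (hp0 : 0 ≤ p)
    (hp : Γ.Yes p) (ht : Γ.No t) (η : ℝ) (hη : 0 < η) : UGHard (p - η) (t + η) :=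
  gad_hard Γ core gadComplete gadSound hs hE p t hp0 hp ht η hη

/-- Hardness from the star with `4 ^ r` terminals. -/
theorem star_hard (r : ℕ) (hr : 1 ≤ r) (η : ℝ) (hη : 0 < η) :
    UGHard (1 / 2 + (1 / 2) ^ (r + 1) - η) ((1 / 4) ^ r + η) := by
  refine hard_of_gad (starGad r) ?_ ?_ _ _ (by positivity) (starVals r).1 (starVals r).2 η hη
  · show 1 ≤ r + r
    omega
  · rw [← List.length_pos_iff]
    simp only [starGad, List.length_map, Finset.length_toList]
    exact Finset.card_pos.2 ⟨0, Finset.mem_univ _⟩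

end Vale.Agent.P325.H111
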